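import Vale.Agent.P297.H55.Z2.Sp
import Vale.Agent.P297.H424.Z2.Iface

/-!
General numerical Godeaux surfaces with torsion of order two: the points of the surface over the
preimage of a line through a node, in terms of the norm of the equation `Phi`.
-/

set_option linter.unusedSectionVars false
set_option linter.unusedVariables false
set_option linter.style.haveILetI false

open IntermediateField Polynomial

namespace Vale.Agent.P297.H55Z

open Vale.Agent.P297 Vale.Agent.P297.Gen Vale.Agent.P297.H72 Vale.Agent.P297.H637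
open Vale.Agent.P297.H160.Z2Irr Vale.Agent.P297.Z2

section ring

variable {R : Type*} [CommRing R] [Algebra ℂ R] (P : Par)

/-- the coefficient of `S` in `Phi` -/
def tPhi1 (l p r y : R) : R :=
  (dat P y).al l p * (dat P y).U * (dat P y).E p - (dat P y).be l r * (dat P y).V * (dat P y).F r

theorem tPhi_eq (l p r y S : R) : tPhi P l p r y S = tPhi P l p r y 0 + S * tPhi1 P l p r y := by
  unfold tPhi tPhi1 Dat.Phi
  ring

/-- the norm of `Phi` -/
def tNm (l p r y : R) : R := tPhi P l p r y 0 ^ 2 - tPhi1 P l p r y ^ 2 * tB P l p r y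

theorem tNm_eq {l p r y S : R} (h : tB P l p r y = S ^ 2) :
    tNm P l p r y = tPhi P l p r y S * tPhi P l p r y (-S) := by
  rw [tPhi_eq P l p r y S, tPhi_eq P l p r y (-S)]
  unfold tNm
  rw [h]
  ring

variable {R' : Type*} [CommRing R'] [Algebra ℂ R'] (f : R →ₐ[ℂ] R')

theorem map_tPhi1 (l p r y : R) : f (tPhi1 P l p r y) = tPhi1 P (f l) (f p) (f r) (f y) := by
  unfold tPhi1
  rw [← map_dat]
  simp only [Dat.al, Dat.be, Dat.g, Dat.E, Dat.F, Dat.map, map_add, map_sub, map_mul, map_pow,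
    map_ofNat]

theorem map_tNm (l p r y : R) : f (tNm P l p r y) = tNm P (f l) (f p) (f r) (f y) := by
  unfold tNm
  simp only [map_sub, map_mul, map_pow, map_tPhi, map_tPhi1, map_tB, map_zero]

theorem map_Kc (l p r y S : R) : f ((dat P y).Kc l p r S) = (dat P (f y)).Kc (f l) (f p) (f r) (f S) := by
  rw [← map_dat]
  simp only [Dat.Kc, Dat.tN, Dat.sN, Dat.K, Dat.J0, Dat.J1, Dat.N, Dat.E, Dat.F, Dat.map, map_add,
    map_sub, map_mul, map_pow, map_neg, map_ofNat]

theorem map_sN (l p r y S : R) : f ((dat P y).sN l p r S) = (dat P (f y)).sN (f l) (f p) (f r) (f S) := by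
  rw [← map_dat]
  simp only [Dat.sN, Dat.K, Dat.J0, Dat.J1, Dat.N, Dat.E, Dat.F, Dat.map, map_add,
    map_sub, map_mul, map_pow, map_neg, map_ofNat]

theorem map_tN (l p r y S : R) : f ((dat P y).tN l p r S) = (dat P (f y)).tN (f l) (f p) (f r) (f S) := by
  rw [← map_dat]
  simp only [Dat.tN, Dat.K, Dat.J0, Dat.J1, Dat.N, Dat.E, Dat.F, Dat.map, map_add,
    map_sub, map_mul, map_pow, map_neg, map_ofNat]

theorem map_h (l y : R) : f ((dat P y).h l) = (dat P (f y)).h (f l) := by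
  rw [← map_dat]
  simp only [Dat.h, Dat.g, Dat.map, map_add, map_sub, map_mul, map_pow]

theorem map_E (p y : R) : f ((dat P y).E p) = (dat P (f y)).E (f p) := by
  rw [← map_dat]
  simp only [Dat.E, Dat.map, map_add, map_mul]

theorem map_F (r y : R) : f ((dat P y).F r) = (dat P (f y)).F (f r) := by
  rw [← map_dat]
  simp only [Dat.F, Dat.map, map_add, map_mul]

end ring

section toS

variable {k k' : Type} [Field k] [Algebra ℂ k] [Field k'] [Algebra ℂ k'] (P : Par) (f : k →ₐ[ℂ] k')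

theorem map_toS (l p r y S : k) (j : Fin 5) :
    f (toS P l p r y S j) = toS P (f l) (f p) (f r) (f y) (f S) j := by
  fin_cases j
  · change f (-(2 * (dat P y).E p ^ 2 * (dat P y).h l) / (dat P y).Kc l p r S) =
      -(2 * (dat P (f y)).E (f p) ^ 2 * (dat P (f y)).h (f l)) / (dat P (f y)).Kc (f l) (f p) (f r) (f S)
    rw [map_div₀, map_neg, map_mul, map_mul, map_pow, map_ofNat, map_E, map_h, map_Kc]
  · change f ((dat P y).F r / (dat P y).E p) = (dat P (f y)).F (f r) / (dat P (f y)).E (f p)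
    rw [map_div₀, map_E, map_F]
  · rfl
  · change f ((dat P y).sN l p r S / (2 * fU P y * fV P y * (dat P y).E p)) =
      (dat P (f y)).sN (f l) (f p) (f r) (f S) / (2 * fU P (f y) * fV P (f y) * (dat P (f y)).E (f p))
    rw [map_div₀, map_mul, map_mul, map_mul, map_ofNat, map_E, map_sN, map_fU, map_fV]
  · change f ((dat P y).tN l p r S / (2 * fU P y * fV P y * (dat P y).E p)) =
      (dat P (f y)).tN (f l) (f p) (f r) (f S) / (2 * fU P (f y) * fV P (f y) * (dat P (f y)).E (f p))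
    rw [map_div₀, map_mul, map_mul, map_mul, map_ofNat, map_E, map_tN, map_fU, map_fV]

end toS

section place

variable {N N₁ : Type} [Field N] [Algebra ℂ N] [Field N₁] [Algebra ℂ N₁]
  [Algebra N N₁] [IsScalarTower ℂ N N₁] {V : Plc N N₁} {P : Par}
  {l₁ p₁ r₁ y₁ S₁ : N₁} {l p r y S : N}

theorem val_tPhi (hl : V.Val l₁ l) (hp : V.Val p₁ p) (hr : V.Val r₁ r) (hy : V.Val y₁ y)
    (hS : V.Val S₁ S) : V.Val (tPhi P l₁ p₁ r₁ y₁ S₁) (tPhi P l p r y S) := by
  have h := val_pr (tPhi P (mk hl) (mk hp) (mk hr) (mk hy) (mk hS))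
  rwa [map_tPhi, map_tPhi] at h

theorem val_tPhi1 (hl : V.Val l₁ l) (hp : V.Val p₁ p) (hr : V.Val r₁ r) (hy : V.Val y₁ y) :
    V.Val (tPhi1 P l₁ p₁ r₁ y₁) (tPhi1 P l p r y) := by
  have h := val_pr (tPhi1 P (mk hl) (mk hp) (mk hr) (mk hy))
  rwa [map_tPhi1, map_tPhi1] at h

theorem val_Kc (hl : V.Val l₁ l) (hp : V.Val p₁ p) (hr : V.Val r₁ r) (hy : V.Val y₁ y)
    (hS : V.Val S₁ S) : V.Val ((dat P y₁).Kc l₁ p₁ r₁ S₁) ((dat P y).Kc l p r S) := by
  have h := val_pr ((dat P (mk hy)).Kc (mk hl) (mk hp) (mk hr) (mk hS))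
  rwa [map_Kc, map_Kc] at h

theorem val_sN (hl : V.Val l₁ l) (hp : V.Val p₁ p) (hr : V.Val r₁ r) (hy : V.Val y₁ y)
    (hS : V.Val S₁ S) : V.Val ((dat P y₁).sN l₁ p₁ r₁ S₁) ((dat P y).sN l p r S) := by
  have h := val_pr ((dat P (mk hy)).sN (mk hl) (mk hp) (mk hr) (mk hS))
  rwa [map_sN, map_sN] at h

theorem val_tN (hl : V.Val l₁ l) (hp : V.Val p₁ p) (hr : V.Val r₁ r) (hy : V.Val y₁ y)
    (hS : V.Val S₁ S) : V.Val ((dat P y₁).tN l₁ p₁ r₁ S₁) ((dat P y).tN l p r S) := by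
  have h := val_pr ((dat P (mk hy)).tN (mk hl) (mk hp) (mk hr) (mk hS))
  rwa [map_tN, map_tN] at h

theorem val_h (hl : V.Val l₁ l) (hy : V.Val y₁ y) :
    V.Val ((dat P y₁).h l₁) ((dat P y).h l) := by
  have h := val_pr ((dat P (mk hy)).h (mk hl))
  rwa [map_h, map_h] at h

theorem val_E (hp : V.Val p₁ p) (hy : V.Val y₁ y) :
    V.Val ((dat P y₁).E p₁) ((dat P y).E p) := by
  have h := val_pr ((dat P (mk hy)).E (mk hp))
  rwa [map_E, map_E] at h

theorem val_F (hr : V.Val r₁ r) (hy : V.Val y₁ y) :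
    V.Val ((dat P y₁).F r₁) ((dat P y).F r) := by
  have h := val_pr ((dat P (mk hy)).F (mk hr))
  rwa [map_F, map_F] at h

theorem val_two : V.Val (2 : N₁) (2 : N) := by
  have h := V.val_const (2 : N)
  rwa [map_ofNat] at h

/-- The conditions under which a point of `T_l` is a good point. -/
structure Good (P : Par) (l p r y S : N) : Prop where
  nU : fU P y ≠ 0
  nV : fV P y ≠ 0
  nE : (dat P y).E p ≠ 0
  nK : (dat P y).Kc l p r S ≠ 0
  nh : (dat P y).h l ≠ 0
  gen : GenS P (toS P l p r y S)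

theorem val_toS [CharZero N] (hl : V.Val l₁ l) (hp : V.Val p₁ p) (hr : V.Val r₁ r) (hy : V.Val y₁ y)
    (hS : V.Val S₁ S) (hg : Good P l p r y S) (j : Fin 5) :
    V.Val (toS P l₁ p₁ r₁ y₁ S₁ j) (toS P l p r y S j) := by
  have hd : 2 * fU P y * fV P y * (dat P y).E p ≠ 0 :=
    mul_ne_zero (mul_ne_zero (mul_ne_zero two_ne_zero hg.nU) hg.nV) hg.nE
  have hdv := ((val_two.mul (val_fU (P := P) hy)).mul (val_fV (P := P) hy)).mul
    (val_E (P := P) hp hy)
  fin_cases j
  · exact (((val_two.mul ((val_E (P := P) hp hy).pow 2)).mul (val_h hl hy)).neg).div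
      (val_Kc hl hp hr hy hS) hg.nK
  · exact (val_F hr hy).div (val_E hp hy) hg.nE
  · exact hy
  · exact (val_sN hl hp hr hy hS).div hdv hd
  · exact (val_tN hl hp hr hy hS).div hdv hd

variable {K : Type} [Field K] [Algebra ℂ K] {x : Fin 5 → K}

/-- **The specialisation of a point of `T_l`.** -/
theorem specC_toS (hx : H160.Z2Irr.IsFF P x) (hl : V.Val l₁ l) (hp : V.Val p₁ p)
    (hr : V.Val r₁ r) (hy : V.Val y₁ y) (hS : V.Val S₁ S) (hg : Good P l p r y S)
    (hB : S₁ ^ 2 = tB P l₁ p₁ r₁ y₁) (hP : tPhi P l₁ p₁ r₁ y₁ S₁ = 0) :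
    (H160.Z2Irr.pt x (toS P l₁ p₁ r₁ y₁ S₁), H160.Z2Irr.pt x (toS P l p r y S)) ∈ SpecC K V := by
  haveI : CharZero N := charZero_of_injective_algebraMap (algebraMap ℂ N).injective
  haveI : CharZero N₁ := charZero_of_injective_algebraMap (algebraMap ℂ N₁).injective
  have hU := (val_fU (P := P) hy).ne_zero hg.nU
  have hV := (val_fV (P := P) hy).ne_zero hg.nV
  have hE := (val_E (P := P) hp hy).ne_zero hg.nE
  have hK := (val_Kc hl hp hr hy hS).ne_zero hg.nK
  have hh := (val_h hl hy).ne_zero hg.nh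
  exact specC_pt hx (toS_E1 hU hV hE hK) (toS_E2 hU hV hE hK hP) (toS_E3 hU hV hE hK hh hB hP)
    (val_toS hl hp hr hy hS hg) hg.gen

end place

end Vale.Agent.P297.H55Z
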