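import Vale.Agent.P297.H55.Z2.TOne

/-!
The degree of the equation of the surface on the lines through the nodes of the branch quartic.
-/

set_option linter.unusedSectionVars false
set_option linter.unusedVariables false

open Polynomial

namespace Vale.Agent.P297.H55Z

open Vale.Agent.P297 Vale.Agent.P297.Gen
open Vale.Agent.P297.H160.Z2Irr Vale.Agent.P297.Z2

section top

variable {L : Type} [Field L]

/-- The two top coefficients. -/
def Top (n : ℕ) (a b : L) (F : L[X]) : Prop :=
  F.natDegree ≤ n + 1 ∧ F.coeff (n + 1) = a ∧ F.coeff n = b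

variable {n m : ℕ} {a b a' b' : L} {F G : L[X]}

theorem Top.add (h : Top n a b F) (h' : Top n a' b' G) : Top n (a + a') (b + b') (F + G) :=
  ⟨(natDegree_add_le _ _).trans (max_le h.1 h'.1), by rw [coeff_add, h.2.1, h'.2.1],
    by rw [coeff_add, h.2.2, h'.2.2]⟩

theorem Top.sub (h : Top n a b F) (h' : Top n a' b' G) : Top n (a - a') (b - b') (F - G) :=
  ⟨(natDegree_sub_le _ _).trans (max_le h.1 h'.1), by rw [coeff_sub, h.2.1, h'.2.1],
    by rw [coeff_sub, h.2.2, h'.2.2]⟩

theorem Top.lift (h : Top n a b F) : Top (n + 1) 0 a F :=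
  ⟨h.1.trans (Nat.le_succ _), coeff_eq_zero_of_natDegree_lt (lt_of_le_of_lt h.1 (Nat.lt_succ_self _)),
    h.2.1⟩

theorem Top.cmul (c : L) (h : Top n a b F) : Top n (c * a) (c * b) (C c * F) :=
  ⟨(natDegree_C_mul_le _ _).trans h.1, by rw [coeff_C_mul, h.2.1], by rw [coeff_C_mul, h.2.2]⟩

theorem Top.mul (h : Top n a b F) (h' : Top m a' b' G) :
    Top (n + m + 1) (a * a') (a * b' + b * a') (F * G) := by
  obtain ⟨h1, h2, h3⟩ := h
  obtain ⟨k1, k2, k3⟩ := h'
  refine ⟨natDegree_mul_le.trans (by omega), ?_, ?_⟩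
  · have e : n + m + 1 + 1 = (n + 1) + (m + 1) := by omega
    rw [e, coeff_mul_add_eq_of_natDegree_le h1 k1, h2, k2]
  · set F' := F - C a * X ^ (n + 1) with hF'
    have hFe : F = C a * X ^ (n + 1) + F' := by
      rw [hF']
      ring
    have d1 : F'.natDegree ≤ n := by
      rw [natDegree_le_iff_coeff_eq_zero]
      intro i hi
      rw [hF', coeff_sub, coeff_C_mul_X_pow]
      rcases Nat.lt_or_ge (n + 1) i with h4 | h4
      · rw [if_neg (by omega), coeff_eq_zero_of_natDegree_lt (lt_of_le_of_lt h1 h4), sub_zero]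
      · have : i = n + 1 := by omega
        rw [this, if_pos rfl, h2, sub_self]
    have d2 : F'.coeff n = b := by
      rw [hF', coeff_sub, coeff_C_mul_X_pow, if_neg (by omega), h3, sub_zero]
    rw [hFe, add_mul, coeff_add]
    have e1 : (C a * X ^ (n + 1) * G).coeff (n + m + 1) = a * b' := by
      rw [mul_assoc, coeff_C_mul]
      have e2 : n + m + 1 = m + (n + 1) := by omega
      rw [e2, coeff_X_pow_mul, k3]
    have e3 : (F' * G).coeff (n + m + 1) = b * a' := by
      have e4 : n + m + 1 = n + (m + 1) := by omega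
      rw [e4, coeff_mul_add_eq_of_natDegree_le d1 k1, d2, k2]
    rw [e1, e3]

theorem top_lin (a b : L) : Top 0 a b (C a * X + C b) := by
  refine ⟨natDegree_linear_le, ?_, ?_⟩
  · simp only [coeff_add, coeff_C_mul, coeff_X_one, mul_one, zero_add, coeff_C_succ, add_zero]
  · simp only [coeff_add, coeff_C_mul, coeff_X_zero, mul_zero, coeff_C_zero, zero_add]

theorem top_quad (a b c : L) : Top 1 a b (C a * X ^ 2 + C b * X + C c) := by
  refine ⟨natDegree_quadratic_le, ?_, ?_⟩
  · simp
  · simp [coeff_C]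

theorem top_const (c : L) : Top 1 0 0 (C c) :=
  ⟨by rw [natDegree_C]; exact Nat.zero_le _, coeff_C_succ, coeff_C_succ⟩

theorem Top.congr (h : Top n a b F) (ha : a = a') (hb : b = b') (hF : F = G) : Top n a' b' G := by
  subst ha hb hF
  exact h

end top

section dat

variable {L : Type} [Field L] {D : Dat L[X]} {u v Q0 Q1 P1 M1 A B l al be p0 r0 s s' : L}
  {p r S : L[X]}

/-- **The degree of the equation of the surface on a line through a node.** -/
theorem top_Phi (hU : Top 0 1 u D.U) (hV : Top 0 1 v D.V) (ha : Top 0 2 Q0 D.a)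
    (hc : Top 0 2 Q1 D.c) (he : Top 1 (-1) P1 D.e) (hm : Top 1 (-1) M1 D.m) (hA : D.A = C A)
    (hB : D.B = C B) (hp : Top 0 al p0 p) (hr : Top 0 (-be) r0 r) (hS : Top 0 s s' S)
    (hsub : be - al = 1 - l)
    (hcub : al * be * (Q0 * al - Q1 * be) = l * (A * al ^ 2 - P1 * (al * be) + B * be ^ 2)) :
    Top 9 0 (-2 * (A * al ^ 2 - P1 * (al * be) + B * be ^ 2)) (D.Phi (C l) p r S) := by
  have e1 : be = al + 1 - l := by linear_combination hsub
  have hN : Top 1 (-(al * be)) (al * r0 - be * p0) (D.N p r) :=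
    ((hp.mul hr).sub ((top_const B).cmul A)).congr (by ring) (by ring)
      (by unfold Dat.N; rw [hA, hB])
  have hE : Top 1 al (p0 + v * al + B) (D.E p) :=
    ((hV.mul hp).add (hU.cmul B).lift).congr (by ring) (by ring) (by unfold Dat.E; rw [hB])
  have hF : Top 1 (-be) (r0 - u * be + A) (D.F r) :=
    ((hU.mul hr).add (hV.cmul A).lift).congr (by ring) (by ring) (by unfold Dat.F; rw [hA])
  have hJ0 : Top 1 (l ^ 2) (2 * l * (p0 + r0) + Q0 * al - Q1 * be - M1) (D.J0 p r) :=
    (((((hp.add hr).mul (hp.add hr)).add (ha.mul hp)).add (hc.mul hr)).sub hm).congr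
      (by rw [e1]; ring) (by rw [e1]; ring) (by unfold Dat.J0; ring)
  have hJ1 : Top 1 l (p0 + u * al + r0 - v * be - P1) (D.J1 p r) :=
    (((hU.mul hp).add (hV.mul hr)).sub he).congr (by rw [e1]; ring) (by ring)
      (by unfold Dat.J1; ring)
  set k1 := 2 * l * (p0 + r0) + Q0 * al - Q1 * be - M1 - l * (p0 + u * al + r0 - v * be - P1) -
    2 * (al * r0 - be * p0) with hk1
  have hK : Top 1 (2 * al * be) k1 (D.K (C l) p r) :=
    ((hJ0.sub (hJ1.cmul l)).sub (hN.cmul 2)).congr (by ring) (by rw [hk1]) (by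
      unfold Dat.K
      rw [map_ofNat])
  set g3 := P1 - (u + v) + A + B with hg3
  have hUV : Top 1 1 (u + v) (D.U * D.V) := (hU.mul hV).congr (by ring) (by ring) rfl
  have hUU : Top 1 1 (2 * u) (D.U ^ 2) := (hU.mul hU).congr (by ring) (by ring) (by ring)
  have hVV : Top 1 1 (2 * v) (D.V ^ 2) := (hV.mul hV).congr (by ring) (by ring) (by ring)
  have hUUU : Top 2 1 (3 * u) (D.U ^ 3) := (hU.mul hUU).congr (by ring) (by ring) (by ring)
  have hVVV : Top 2 1 (3 * v) (D.V ^ 3) := (hV.mul hVV).congr (by ring) (by ring) (by ring)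
  have hg : Top 3 (-1) g3 D.g :=
    (((hUV.mul he).add (hVVV.cmul A).lift).add (hUUU.cmul B).lift).congr (by ring)
      (by rw [hg3]; ring) (by unfold Dat.g; rw [hA, hB])
  set h5 := -2 * B - 2 * A - M1 + 2 * (u + v) + l * (g3 - (u + v)) with hh5
  have h1 : Top 5 0 0 ((D.B * D.U ^ 2 + D.A * D.V ^ 2) ^ 2) :=
    (((hUU.cmul B).add (hVV.cmul A)).mul ((hUU.cmul B).add (hVV.cmul A))).lift.lift.congr rfl rfl
      (by rw [hA, hB]; ring)
  have hh : Top 5 (1 - l) h5 (D.h (C l)) :=
    ((((h1.sub (((ha.mul hUUU).mul hV).cmul B).lift).sub (((hc.mul hVVV).mul hU).cmul A).lift).sub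
      ((hm.mul hUU).mul hVV)).add ((hUV.mul hg).cmul l)).congr (by ring) (by rw [hh5]; ring)
      (by unfold Dat.h; rw [hA, hB]; ring)
  set a4 := g3 * al - p0 - B + 2 * B + 2 * A + M1 - 2 * u - v - l * (g3 - u) with ha4
  have hal : Top 4 (-be) a4 (D.al (C l) p) :=
    ((((((((hg.mul hp).add ((hUU.mul he).cmul B).lift).add
      (((hU.mul hVV).cmul (A * B)).lift.lift)).sub (((hUU.mul hV).cmul (2 * A * B)).lift.lift)).sub
      ((hVVV.cmul (A ^ 2)).lift.lift)).add ((ha.mul hUUU).cmul B).lift).add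
      (((hc.mul hU).mul hVV).cmul A).lift).add ((hm.mul hUU).mul hV) |>.sub
      ((hU.mul hg).cmul l)).congr (by rw [e1]; ring) (by rw [ha4]; ring)
      (by
        unfold Dat.al
        rw [hA, hB]
        simp only [map_mul, map_pow, map_ofNat]
        ring)
  set b4 := -g3 * be - r0 - A + 2 * B + 2 * A + M1 - u - 2 * v - l * (g3 - v) with hb4
  have hbe : Top 4 al b4 (D.be (C l) r) :=
    ((((((((hg.mul hr).add ((hVV.mul he).cmul A).lift).add
      (((hUU.mul hV).cmul (A * B)).lift.lift)).sub (((hU.mul hVV).cmul (2 * A * B)).lift.lift)).sub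
      ((hUUU.cmul (B ^ 2)).lift.lift)).add (((ha.mul hUU).mul hV).cmul B).lift).add
      ((hc.mul hVVV).cmul A).lift).add ((hm.mul hU).mul hVV) |>.sub
      ((hV.mul hg).cmul l)).congr (by rw [e1]; ring) (by rw [hb4]; ring)
      (by
        unfold Dat.be
        rw [hA, hB]
        simp only [map_mul, map_pow, map_ofNat]
        ring)
  have hS1 := hS.lift
  have hPhi := ((((((((hal.mul hU).mul hE).mul (hK.add hS1)).add
    (((hbe.mul hV).mul hF).mul (hK.sub hS1))).sub
    (((hg.mul hN).mul (hE.mul hF)).cmul 4)).add ((hh.mul (hN.mul (hE.add hF))).cmul 2)).add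
    (((hE.mul hF).mul ((hg.mul (hE.add hF)).sub (hh.cmul 2))).cmul (2 * l))).add
    ((hh.mul (hE.mul hF)).cmul 2))
  refine hPhi.congr ?_ ?_ ?_
  · rw [e1]
    ring
  · rw [e1] at hcub
    rw [hk1, hh5, ha4, hb4, hg3, e1]
    linear_combination (-2) * hcub
  · unfold Dat.Phi
    simp only [map_mul, map_ofNat]
    ring

end dat

section main

/-- **The degree of the equation of the surface on the lines through the nodes is nine.** -/
theorem deg9 (P : Par) : Deg9 P := by
  intro L _ _ l al be p r s s' hn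
  have hal : ∀ z : ℂ, algebraMap ℂ L[X] z = C (algebraMap ℂ L z) := fun z => rfl
  have hlin : ∀ z : L, Top 0 1 z (X + C z) := fun z =>
    (top_lin 1 z).congr rfl rfl (by rw [C_1, one_mul])
  have hlin2 : ∀ z : L, Top 0 2 z (2 * X + C z) := fun z =>
    (top_lin 2 z).congr rfl rfl (by rw [map_ofNat])
  have hq : ∀ z w : L, Top 1 (-1) w (C z - X ^ 2 + C w * X) := fun z w =>
    (top_quad (-1) w z).congr rfl rfl (by
      rw [map_neg, C_1]
      ring)
  have h := top_Phi (D := dat P (X : L[X])) (hlin (algebraMap ℂ L P.u)) (hlin (algebraMap ℂ L P.v))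
    (hlin2 (algebraMap ℂ L P.Q0)) (hlin2 (algebraMap ℂ L P.Q1))
    (hq (algebraMap ℂ L P.n) (algebraMap ℂ L P.P1)) (hq (algebraMap ℂ L P.m) (algebraMap ℂ L P.M1))
    (hal P.P0) (hal P.P2) (top_lin al p) (top_lin (-be) r) (top_lin s s') hn.sub hn.cub
  refine ⟨?_, h.2.2⟩
  have h1 := h.1
  rw [natDegree_le_iff_coeff_eq_zero] at h1 ⊢
  intro i hi
  rcases Nat.lt_or_ge 10 i with h2 | h2
  · exact h1 i h2
  · have : i = 10 := by omega
    rw [this]
    exact h.2.1

variable {K N : Type} [Field K] [Algebra ℂ K] [Field N] [Algebra ℂ N] [IsAlgClosed N] {P : Par}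
  {x : Fin 5 → K}

/-- **[T1]**, given that the points of the surface on the general line are good. -/
theorem t1' (h4 : Algebra.trdeg ℂ N = 4) {m : ℤ} (hx : H160.Z2Irr.IsFF P x) (h : NC P)
    (h9 : Good9 P N) {l al be p r s s' : N} (hlt : Transcendental ℂ l)
    (hL : NLine P l al be p r s s') (hgen : p ∉ Gen.cl0 {l} ∨ r ∉ Gen.cl0 {l}) :
    ncyc P x l al be p r s s' + ncyc P x l al be p r (-s) (-s') ∈ H72.Rel m K N :=
  t1 h4 hx h (deg9 P) h9 hlt hL hgen

/-- The natural degree and the leading coefficient of the equation of a component. -/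
theorem cP_deg (h : NC P) {l al be p r s s' : N} (hlt : Transcendental ℂ l)
    (hn : IsNode P l al be) : (cP P l al be p r s s').natDegree = 9 ∧
      (cP P l al be p r s s').leadingCoeff = -2 * (algebraMap ℂ N P.P0 * al ^ 2 -
        algebraMap ℂ N P.P1 * (al * be) + algebraMap ℂ N P.P2 * be ^ 2) := by
  have h1 := cP_natDegree (p := p) (r := r) (s := s) (s' := s') h (deg9 P) hlt hn
  refine ⟨h1, ?_⟩
  unfold leadingCoeff
  rw [h1]
  exact (deg9 P N l al be p r s s' hn).2

end main

end Vale.Agent.P297.H55Z
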