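import Vale.Agent.P297.H55.Z2.PhiOne
import Vale.Agent.P297.H424.Z2.Nodes
import Vale.Agent.P297.H288.KMain

/-!
The relation [T1]: the sum of the cycles of the two components over a tangent line through a node
of the branch quartic is a relation.
-/

set_option linter.unusedSectionVars false
set_option linter.unusedVariables false
set_option linter.style.haveILetI false
set_option linter.unusedSimpArgs false

open IntermediateField Polynomial

namespace Vale.Agent.P297.H55Z

open Vale.Agent.P297 Vale.Agent.P297.Gen Vale.Agent.P297.H72 Vale.Agent.P297.H637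
open Vale.Agent.P297.H160.Z2Irr Vale.Agent.P297.Z2

/-- The degree of `Phi` on the lines through the nodes. -/
def Deg9 (P : Par) : Prop :=
  ∀ (L : Type) [Field L] [Algebra ℂ L] (l al be p r s s' : L), IsNode P l al be →
    (tPhi P (C l : L[X]) (C al * X + C p) (C (-be) * X + C r) X (C s * X + C s')).natDegree ≤ 9 ∧
    (tPhi P (C l : L[X]) (C al * X + C p) (C (-be) * X + C r) X (C s * X + C s')).coeff 9 =
      -2 * (algebraMap ℂ L P.P0 * al ^ 2 - algebraMap ℂ L P.P1 * (al * be) +
        algebraMap ℂ L P.P2 * be ^ 2)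

/-- The points of the surface on the general line through a node are good. -/
def Good9 (P : Par) (N : Type) [Field N] [Algebra ℂ N] : Prop :=
  ∀ l al be p r s s' y : N, Transcendental ℂ l → NLine P l al be p r s s' →
    (p ∉ cl0 {l} ∨ r ∉ cl0 {l}) → tPhi P l (al * y + p) (-be * y + r) y (s * y + s') = 0 →
    Good P l (al * y + p) (-be * y + r) y (s * y + s')

section fam

variable {K : Type} [Field K] [Algebra ℂ K]

/-- the norm of `Phi` on a line -/
noncomputable def nF (P : Par) {L : Type} [CommRing L] [Algebra ℂ L] (l al be p r : L) : L[X] :=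
  tNm P (C l) (C al * X + C p) (C (-be) * X + C r) X

theorem map_nF {P : Par} {L L' : Type} [CommRing L] [Algebra ℂ L] [CommRing L'] [Algebra ℂ L']
    (g : L →ₐ[ℂ] L') (l al be p r : L) : (nF P l al be p r).map (g : L →+* L') =
    nF P (g l) (g al) (g be) (g p) (g r) := by
  change (Polynomial.mapAlgHom g) (tNm P (C l) (C al * X + C p) (C (-be) * X + C r) X) = _
  rw [map_tNm, Polynomial.coe_mapAlgHom]
  unfold nF
  simp only [Polynomial.map_add, Polynomial.map_mul, Polynomial.map_C, Polynomial.map_X,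
    Polynomial.map_neg, RingHom.coe_coe, map_neg]

/-- the point with the coordinates `p`, `r`, `y` -/
noncomputable def pz (P : Par) (x : Fin 5 → K) {L : Type} [Field L] [Algebra ℂ L] (l p r y : L) :
    (K →ₐ[ℂ] L) →₀ ℤ :=
  H160.Z2Irr.pt x (toS P l p r y (-tPhi P l p r y 0 / tPhi1 P l p r y))

/-- the cycle of the preimage of a line -/
noncomputable def nS (P : Par) (x : Fin 5 → K) {L : Type} [Field L] [Algebra ℂ L]
    (l al be p r : L) : (K →ₐ[ℂ] L) →₀ ℤ :=
  ((nF P l al be p r).roots.map fun y => pz P x l (al * y + p) (-be * y + r) y).sum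

/-- the family -/
noncomputable def Vt (P : Par) (x : Fin 5 → K) (L : Type) [Field L] [Algebra ℂ L]
    (v : Fin 3 → L) : (K →ₐ[ℂ] L) →₀ ℤ :=
  nS P x (tg P (v 0) / tD P (v 0)) (nal P (v 0)) (nbe P (v 0)) (v 1) (v 2)

variable {L L' : Type} [Field L] [Algebra ℂ L] [Field L'] [Algebra ℂ L'] {P : Par} (g : L →ₐ[ℂ] L')

theorem map_pz {x : Fin 5 → K} (hx : H160.Z2Irr.IsFF P x) (l p r y : L) :
    Finsupp.mapDomain (fun φ : K →ₐ[ℂ] L => g.comp φ) (pz P x l p r y) =
      pz P x (g l) (g p) (g r) (g y) := by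
  unfold pz
  rw [map_pt_all hx]
  congr 1
  funext j
  rw [map_toS, map_div₀, map_neg, map_tPhi, map_tPhi1, map_zero]

theorem map_nS [IsAlgClosed L] {x : Fin 5 → K} (hx : H160.Z2Irr.IsFF P x) (l al be p r : L) :
    Finsupp.mapDomain (fun φ : K →ₐ[ℂ] L => g.comp φ) (nS P x l al be p r) =
      nS P x (g l) (g al) (g be) (g p) (g r) := by
  unfold nS
  rw [sum_roots_map g (nF P l al be p r) _ (fun y => pz P x (g l) (g al * y + g p)
    (-g be * y + g r) y) (fun y _ => by
      rw [map_pz g hx]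
      congr 1
      · rw [map_add, map_mul]
      · rw [map_add, map_mul, map_neg]), map_nF]

theorem map_nbe (t : L) : g (nbe P t) = nbe P (g t) := by
  unfold nbe
  rw [map_div₀, map_tq, map_tD]

theorem map_nal (t : L) : g (nal P t) = nal P (g t) := by
  unfold nal
  rw [map_mul, map_nbe]

theorem map_Vt [IsAlgClosed L] {x : Fin 5 → K} (hx : H160.Z2Irr.IsFF P x) (v : Fin 3 → L) :
    Finsupp.mapDomain (fun φ : K →ₐ[ℂ] L => g.comp φ) (Vt P x L v) =
      Vt P x L' (fun i => g (v i)) := by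
  unfold Vt
  rw [map_nS g hx, map_div₀, map_tg, map_tD, map_nbe, map_nal]

end fam

section deg

variable {L : Type} [Field L] [Algebra ℂ L] {P : Par} {l al be p r s s' : L}

theorem tPhi_line (l al be p r s s' y : L) :
    (tPhi P (C l : L[X]) (C al * X + C p) (C (-be) * X + C r) X (C s * X + C s')).eval y =
      tPhi P l (al * y + p) (-be * y + r) y (s * y + s') := by
  have h := map_tPhi P ((Polynomial.aeval y : L[X] →ₐ[L] L).restrictScalars ℂ) (C l)
    (C al * X + C p) (C (-be) * X + C r) X (C s * X + C s')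
  simp only [AlgHom.restrictScalars_apply, coe_aeval_eq_eval, eval_add, eval_mul, eval_C,
    eval_X] at h
  exact h

theorem tPhi1_line (l al be p r y : L) :
    (tPhi1 P (C l : L[X]) (C al * X + C p) (C (-be) * X + C r) X).eval y =
      tPhi1 P l (al * y + p) (-be * y + r) y := by
  have h := map_tPhi1 P ((Polynomial.aeval y : L[X] →ₐ[L] L).restrictScalars ℂ) (C l)
    (C al * X + C p) (C (-be) * X + C r) X
  simp only [AlgHom.restrictScalars_apply, coe_aeval_eq_eval, eval_add, eval_mul, eval_C,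
    eval_X] at h
  exact h

theorem tB_line (l al be p r y : L) :
    (tB P (C l : L[X]) (C al * X + C p) (C (-be) * X + C r) X).eval y =
      tB P l (al * y + p) (-be * y + r) y := by
  have h := map_tB P ((Polynomial.aeval y : L[X] →ₐ[L] L).restrictScalars ℂ) (C l)
    (C al * X + C p) (C (-be) * X + C r) X
  simp only [AlgHom.restrictScalars_apply, coe_aeval_eq_eval, eval_add, eval_mul, eval_C,
    eval_X] at h
  exact h

theorem tNm_line (l al be p r y : L) : (nF P l al be p r).eval y =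
      tNm P l (al * y + p) (-be * y + r) y := by
  have h := map_tNm P ((Polynomial.aeval y : L[X] →ₐ[L] L).restrictScalars ℂ) (C l)
    (C al * X + C p) (C (-be) * X + C r) X
  simp only [AlgHom.restrictScalars_apply, coe_aeval_eq_eval, eval_add, eval_mul, eval_C,
    eval_X] at h
  exact h

/-- The degree of the branch quartic on a line through a node is at most three. -/
theorem natDegree_tB (hn : be - al = 1 - l) :
    (tB P (C l : L[X]) (C al * X + C p) (C (-be) * X + C r) X).natDegree ≤ 3 := by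
  have e1 : be = al + 1 - l := by linear_combination hn
  obtain ⟨k1, k0, hk⟩ : ∃ k1 k0 : L, (dat P (X : L[X])).K (C l) (C al * X + C p)
      (C (-be) * X + C r) = C (2 * al * be) * X ^ 2 + C k1 * X + C k0 := by
    refine ⟨2 * l * (p + r) + algebraMap ℂ L P.Q0 * al - algebraMap ℂ L P.Q1 * be + 0 +
      2 * (p * al - r * be) * 0 - algebraMap ℂ L P.M1 - l * (p + r + al * algebraMap ℂ L P.u -
      be * algebraMap ℂ L P.v - algebraMap ℂ L P.P1) - 2 * (al * r - be * p), (p + r) ^ 2 +
      algebraMap ℂ L P.Q0 * p + algebraMap ℂ L P.Q1 * r - algebraMap ℂ L P.m -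
      l * (algebraMap ℂ L P.u * p + algebraMap ℂ L P.v * r - algebraMap ℂ L P.n) -
      2 * (p * r - algebraMap ℂ L P.P0 * algebraMap ℂ L P.P2), ?_⟩
    simp only [dat, Dat.K, Dat.J0, Dat.J1, Dat.N, fU, fV, fa, fc, fe, fm,
      IsScalarTower.algebraMap_apply ℂ L L[X], Polynomial.algebraMap_eq, e1]
    simp only [map_add, map_sub, map_mul, map_pow, map_neg, map_ofNat, map_one, map_zero]
    ring
  obtain ⟨n1, n0, hN⟩ : ∃ n1 n0 : L, (dat P (X : L[X])).N (C al * X + C p)
      (C (-be) * X + C r) = C (-(al * be)) * X ^ 2 + C n1 * X + C n0 := by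
    refine ⟨al * r - be * p, p * r - algebraMap ℂ L P.P0 * algebraMap ℂ L P.P2, ?_⟩
    simp only [dat, Dat.N, IsScalarTower.algebraMap_apply ℂ L L[X], Polynomial.algebraMap_eq]
    simp only [map_add, map_sub, map_mul, map_neg]
    ring
  obtain ⟨c1, c0, hE⟩ : ∃ c1 c0 : L, (dat P (X : L[X])).E (C al * X + C p) =
      C al * X ^ 2 + C c1 * X + C c0 := by
    refine ⟨p + al * algebraMap ℂ L P.v + algebraMap ℂ L P.P2, algebraMap ℂ L P.v * p +
      algebraMap ℂ L P.P2 * algebraMap ℂ L P.u, ?_⟩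
    simp only [dat, Dat.E, fU, fV, IsScalarTower.algebraMap_apply ℂ L L[X],
      Polynomial.algebraMap_eq]
    simp only [map_add, map_mul]
    ring
  obtain ⟨d1, d0, hF⟩ : ∃ d1 d0 : L, (dat P (X : L[X])).F (C (-be) * X + C r) =
      C (-be) * X ^ 2 + C d1 * X + C d0 := by
    refine ⟨r - be * algebraMap ℂ L P.u + algebraMap ℂ L P.P0, algebraMap ℂ L P.u * r +
      algebraMap ℂ L P.P0 * algebraMap ℂ L P.v, ?_⟩
    simp only [dat, Dat.F, fU, fV, IsScalarTower.algebraMap_apply ℂ L L[X],
      Polynomial.algebraMap_eq]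
    simp only [map_add, map_mul, map_sub, map_neg]
    ring
  have key : tB P (C l : L[X]) (C al * X + C p) (C (-be) * X + C r) X =
      (C (2 * al * be) * X ^ 2 + C k1 * X + C k0) ^ 2 -
        4 * ((C (-(al * be)) * X ^ 2 + C n1 * X + C n0) ^ 2 - C l *
          (C (-(al * be)) * X ^ 2 + C n1 * X + C n0) * ((C al * X ^ 2 + C c1 * X + C c0) +
            (C (-be) * X ^ 2 + C d1 * X + C d0)) + (C l ^ 2 - C l) *
          (C al * X ^ 2 + C c1 * X + C c0) * (C (-be) * X ^ 2 + C d1 * X + C d0)) := by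
    unfold tB Dat.Bq
    rw [hk, hN, hE, hF]
  have key2 : tB P (C l : L[X]) (C al * X + C p) (C (-be) * X + C r) X =
      C (4 * al * be * k1 - 4 * (-(2 * al * be * n1) - l * (n1 * (al - be) - al * be * (c1 + d1)) +
        (l ^ 2 - l) * (al * d1 - be * c1))) * X ^ 3 +
      C (k1 ^ 2 + 4 * al * be * k0 - 4 * (n1 ^ 2 - 2 * al * be * n0 - l * (n0 * (al - be) +
        n1 * (c1 + d1) - al * be * (c0 + d0)) + (l ^ 2 - l) * (al * d0 + c1 * d1 - be * c0))) *
          X ^ 2 +
      C (2 * k1 * k0 - 4 * (2 * n1 * n0 - l * (n1 * (c0 + d0) + n0 * (c1 + d1)) +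
        (l ^ 2 - l) * (c1 * d0 + c0 * d1))) * X +
      C (k0 ^ 2 - 4 * (n0 ^ 2 - l * n0 * (c0 + d0) + (l ^ 2 - l) * c0 * d0)) := by
    rw [key, e1]
    simp only [map_add, map_sub, map_mul, map_pow, map_neg, map_ofNat, map_one]
    ring
  rw [key2]
  compute_degree

theorem nF_natDegree_le (hD : Deg9 P) (hn : IsNode P l al be) :
    (nF P l al be p r).natDegree ≤ 18 := by
  have h0 := (hD L l al be p r 0 0 hn).1
  have h1 := hD L l al be p r 1 0 hn
  have h2 := hD L l al be p r 0 0 hn
  have hB := natDegree_tB (P := P) (p := p) (r := r) hn.sub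
  set F0 := tPhi P (C l : L[X]) (C al * X + C p) (C (-be) * X + C r) X 0 with hF0
  set F1 := tPhi1 P (C l : L[X]) (C al * X + C p) (C (-be) * X + C r) X with hF1
  have e0 : tPhi P (C l : L[X]) (C al * X + C p) (C (-be) * X + C r) X (C 0 * X + C 0) = F0 := by
    rw [hF0, map_zero, zero_mul, add_zero]
  have e1 : tPhi P (C l : L[X]) (C al * X + C p) (C (-be) * X + C r) X (C 1 * X + C 0) =
      F0 + X * F1 := by
    rw [tPhi_eq, map_zero, add_zero, map_one, one_mul]
  rw [e0] at h0 h2
  rw [e1] at h1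
  have h3 : (X * F1).natDegree ≤ 9 := by
    have : X * F1 = (F0 + X * F1) - F0 := by ring
    rw [this]
    exact (natDegree_sub_le _ _).trans (max_le h1.1 h2.1)
  have h4 : (X * F1).coeff 9 = 0 := by
    have : X * F1 = (F0 + X * F1) - F0 := by ring
    rw [this, coeff_sub, h1.2, h2.2, sub_self]
  have h5 : F1.natDegree ≤ 7 := by
    rw [natDegree_le_iff_coeff_eq_zero]
    intro n hn
    rw [← coeff_X_mul]
    rcases Nat.lt_or_ge 8 n with h | h
    · exact coeff_eq_zero_of_natDegree_lt (by omega)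
    · have : n = 8 := by omega
      rw [this]
      exact h4
  have hNF : nF P l al be p r = F0 ^ 2 - F1 ^ 2 * tB P (C l : L[X]) (C al * X + C p)
      (C (-be) * X + C r) X := rfl
  rw [hNF]
  refine (natDegree_sub_le _ _).trans (max_le ?_ ?_)
  · exact (natDegree_pow_le).trans (by omega)
  · refine (natDegree_mul_le).trans ?_
    have h6 : (F1 ^ 2).natDegree ≤ 14 := (natDegree_pow_le).trans (by omega)
    omega

end deg

section spec

variable {N N₁ : Type} [Field N] [Algebra ℂ N] [Field N₁] [Algebra ℂ N₁]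
  [Algebra N N₁] [IsScalarTower ℂ N N₁] {V : Plc N N₁} {P : Par}

/-- The values of the coefficients of the norm. -/
theorem pval_nF {l₁ al₁ be₁ p₁ r₁ : N₁} {l al be p r : N} (hl : V.Val l₁ l) (ha : V.Val al₁ al)
    (hb : V.Val be₁ be) (hp : V.Val p₁ p) (hr : V.Val r₁ r) :
    PVal V (nF P l₁ al₁ be₁ p₁ r₁) (nF P l al be p r) := by
  have h := pval_pr (nF P (mk hl) (mk ha) (mk hb) (mk hp) (mk hr))
  have e1 := map_nF (P := P) (fs V) (mk hl) (mk ha) (mk hb) (mk hp) (mk hr)
  have e2 := map_nF (P := P) (sn V) (mk hl) (mk ha) (mk hb) (mk hp) (mk hr)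
  have e3 : (nF P (mk hl) (mk ha) (mk hb) (mk hp) (mk hr)).map (fs V : Pr V →+* N₁) =
    nF P l₁ al₁ be₁ p₁ r₁ := e1
  have e4 : (nF P (mk hl) (mk ha) (mk hb) (mk hp) (mk hr)).map (sn V : Pr V →+* N) =
    nF P l al be p r := e2
  rw [← e3, ← e4]
  exact h

theorem c9_ne (h : NC P) {l al be : N} (hl : Transcendental ℂ l) (hn : IsNode P l al be) :
    algebraMap ℂ N P.P0 * al ^ 2 - algebraMap ℂ N P.P1 * (al * be) +
      algebraMap ℂ N P.P2 * be ^ 2 ≠ 0 := by
  have h0 := tC_of_isNode hn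
  have htr := root_tr h hl h0
  have hq := tq_ne h htr
  have hb := hn.be0
  have ha : al = al / be * be := by field_simp
  have e : algebraMap ℂ N P.P0 * al ^ 2 - algebraMap ℂ N P.P1 * (al * be) +
      algebraMap ℂ N P.P2 * be ^ 2 = be ^ 2 * tq P (al / be) := by
    conv_lhs => rw [ha]
    unfold tq
    ring
  rw [e]
  exact mul_ne_zero (pow_ne_zero 2 hb) hq

variable {K : Type} [Field K] [Algebra ℂ K] {x : Fin 5 → K}

/-- Specialisation of the sum over the roots of a polynomial. -/
theorem bl_all [IsAlgClosed N₁] {F : N₁[X]} {F₀ : N[X]} (hF : PVal V F F₀) (h0 : F₀ ≠ 0)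
    (hd : F.natDegree = F₀.natDegree) (f : N₁ → ((K →ₐ[ℂ] N₁) →₀ ℤ))
    (f₀ : N → ((K →ₐ[ℂ] N) →₀ ℤ))
    (h1 : ∀ r a, F.eval r = 0 → V.Val r a → F₀.eval a = 0 → (f r, f₀ a) ∈ SpecC K V) :
    ((F.roots.map f).sum, (F₀.roots.map f₀).sum) ∈ SpecC K V := by
  classical
  have key := bl_full (K := K) (P := V) hF h0 hd ∅ (fun _ => 0)
    (G₀ := F₀) (by rw [Finset.prod_empty, mul_one]) (fun _ => 0)
    (fun c hc => absurd hc (Finset.notMem_empty c)) (fun c hc => absurd hc (Finset.notMem_empty c))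
    (fun _ => 0) (fun _ => 0) (fun _ => 0) (fun c hc => absurd hc (Finset.notMem_empty c))
    (fun c hc => absurd hc (Finset.notMem_empty c)) (fun c hc => absurd hc (Finset.notMem_empty c))
    (fun c hc => absurd hc (Finset.notMem_empty c)) (fun c hc => absurd hc (Finset.notMem_empty c))
    f f₀ (fun _ _ => 0) (fun r a h2 h3 _ h4 => h1 r a h2 h3 h4)
    (fun c hc => absurd hc (Finset.notMem_empty c)) (fun c hc => absurd hc (Finset.notMem_empty c))
  rwa [Finset.sum_empty, add_zero] at key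

/-- the equation of a component -/
noncomputable def cP (P : Par) {L : Type} [Field L] [Algebra ℂ L] (l al be p r s s' : L) : L[X] :=
  tPhi P (C l) (C al * X + C p) (C (-be) * X + C r) X (C s * X + C s')

variable {l al be p r s s' : N}

theorem nl_neg (hL : NLine P l al be p r s s') : NLine P l al be p r (-s) (-s') :=
  ⟨hL.node, by
    rw [hL.eq, map_neg, map_neg]
    ring⟩

theorem cP_natDegree (h : NC P) (hD : Deg9 P) (hlt : Transcendental ℂ l)
    (hn : IsNode P l al be) : (cP P l al be p r s s').natDegree = 9 := by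
  haveI : CharZero N := charZero_of_injective_algebraMap (algebraMap ℂ N).injective
  have hc9 := c9_ne h hlt hn
  obtain ⟨d1, d2⟩ := hD N l al be p r s s' hn
  refine le_antisymm d1 (le_natDegree_of_ne_zero ?_)
  unfold cP
  rw [d2]
  exact mul_ne_zero (neg_ne_zero.2 two_ne_zero) hc9

theorem cP_ne (h : NC P) (hD : Deg9 P) (hlt : Transcendental ℂ l)
    (hn : IsNode P l al be) : cP P l al be p r s s' ≠ 0 := by
  intro h0
  have h1 := cP_natDegree (p := p) (r := r) (s := s) (s' := s') h hD hlt hn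
  rw [h0, natDegree_zero] at h1
  omega

theorem nF_eq (hL : NLine P l al be p r s s') :
    nF P l al be p r = cP P l al be p r s s' * cP P l al be p r (-s) (-s') := by
  unfold nF cP
  rw [tNm_eq P hL.eq]
  congr 2
  rw [map_neg, map_neg]
  ring

/-- The points of a component. -/
theorem pt_comp (hP0 : P.P0 ≠ 0) (h9 : Good9 P N) (hlt : Transcendental ℂ l)
    (hgen : p ∉ cl0 {l} ∨ r ∉ cl0 {l}) (hL : NLine P l al be p r s s') {a : N}
    (h1 : (cP P l al be p r s s').eval a = 0) :
    Good P l (al * a + p) (-be * a + r) a (s * a + s') ∧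
      tPhi1 P l (al * a + p) (-be * a + r) a ≠ 0 ∧
      s * a + s' = -tPhi P l (al * a + p) (-be * a + r) a 0 /
        tPhi1 P l (al * a + p) (-be * a + r) a := by
  haveI : CharZero N := charZero_of_injective_algebraMap (algebraMap ℂ N).injective
  unfold cP at h1
  rw [tPhi_line] at h1
  have h2 := h9 l al be p r s s' a hlt hL hgen h1
  have h3 := tPhi1_ne hP0 h2
  refine ⟨h2, h3, ?_⟩
  rw [eq_div_iff h3]
  rw [tPhi_eq] at h1
  linear_combination h1

theorem pz_comp (hP0 : P.P0 ≠ 0) (h9 : Good9 P N) (hlt : Transcendental ℂ l)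
    (hgen : p ∉ cl0 {l} ∨ r ∉ cl0 {l}) (hL : NLine P l al be p r s s') {a : N}
    (h1 : (cP P l al be p r s s').eval a = 0) :
    pz P x l (al * a + p) (-be * a + r) a =
      H160.Z2Irr.pt x (toS P l (al * a + p) (-be * a + r) a (s * a + s')) := by
  unfold pz
  rw [(pt_comp hP0 h9 hlt hgen hL h1).2.2]

theorem sum_comp (hP0 : P.P0 ≠ 0) (h : NC P) (hD : Deg9 P) (h9 : Good9 P N)
    (hlt : Transcendental ℂ l)
    (hgen : p ∉ cl0 {l} ∨ r ∉ cl0 {l}) (hL : NLine P l al be p r s s') :
    ((cP P l al be p r s s').roots.map fun y => pz P x l (al * y + p) (-be * y + r) y).sum =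
      ncyc P x l al be p r s s' := by
  have e : ncyc P x l al be p r s s' = ((cP P l al be p r s s').roots.map fun a =>
      H160.Z2Irr.pt x (toS P l ((C al * X + C p).eval a) ((C (-be) * X + C r).eval a)
        ((X : N[X]).eval a) ((C s * X + C s').eval a))).sum := rfl
  rw [e]
  congr 1
  refine Multiset.map_congr rfl fun a hra => ?_
  rw [pz_comp hP0 h9 hlt hgen hL ((mem_roots (cP_ne h hD hlt hL.node)).1 hra)]
  simp only [eval_add, eval_mul, eval_C, eval_X]

theorem spec_pz (hx : H160.Z2Irr.IsFF P x) (h9 : Good9 P N)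
    {l₁ al₁ be₁ p₁ r₁ : N₁} (hl : V.Val l₁ l) (ha : V.Val al₁ al) (hb : V.Val be₁ be)
    (hp : V.Val p₁ p) (hr : V.Val r₁ r) (hlt : Transcendental ℂ l)
    (hL : NLine P l al be p r s s') (hgen : p ∉ cl0 {l} ∨ r ∉ cl0 {l}) {ρ : N₁} {a : N}
    (h1 : (nF P l₁ al₁ be₁ p₁ r₁).eval ρ = 0) (h2 : V.Val ρ a)
    (h3 : (cP P l al be p r s s').eval a = 0) :
    (pz P x l₁ (al₁ * ρ + p₁) (-be₁ * ρ + r₁) ρ, pz P x l (al * a + p) (-be * a + r) a) ∈
      SpecC K V := by
  obtain ⟨g1, g2, g3⟩ := pt_comp hx.nP h9 hlt hgen hL h3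
  have vp := (ha.mul h2).add hp
  have vr := (hb.neg.mul h2).add hr
  have vF1 := val_tPhi1 (P := P) hl vp vr h2
  have hF1 := vF1.ne_zero g2
  have vS := ((val_tPhi (P := P) hl vp vr h2 V.val_zero).neg).div vF1 g2
  rw [← g3] at vS
  unfold pz
  rw [← g3]
  refine specC_toS hx hl vp vr h2 vS g1 ?_ ?_
  · rw [tNm_line] at h1
    unfold tNm at h1
    rw [div_pow, div_eq_iff (pow_ne_zero 2 hF1)]
    linear_combination h1
  · rw [tPhi_eq, div_mul_cancel₀ _ hF1]
    ring

/-- **The preimages of the lines through a node specialise to the two components.** -/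
theorem spec_nS [IsAlgClosed N] [IsAlgClosed N₁] (hx : H160.Z2Irr.IsFF P x) (h : NC P)
    (hD : Deg9 P) (h9 : Good9 P N) {l₁ al₁ be₁ p₁ r₁ : N₁}
    (hl : V.Val l₁ l) (ha : V.Val al₁ al) (hb : V.Val be₁ be) (hp : V.Val p₁ p) (hr : V.Val r₁ r)
    (hn₁ : IsNode P l₁ al₁ be₁) (hlt : Transcendental ℂ l) (hL : NLine P l al be p r s s')
    (hgen : p ∉ cl0 {l} ∨ r ∉ cl0 {l}) :
    (nS P x l₁ al₁ be₁ p₁ r₁,
      ncyc P x l al be p r s s' + ncyc P x l al be p r (-s) (-s')) ∈ SpecC K V := by
  classical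
  have hL' := nl_neg hL
  have hn := hL.node
  have hFp0 := cP_ne (p := p) (r := r) (s := s) (s' := s') h hD hlt hn
  have hFm0 := cP_ne (p := p) (r := r) (s := -s) (s' := -s') h hD hlt hn
  have hfac := nF_eq hL
  have hF0 : nF P l al be p r ≠ 0 := by
    rw [hfac]
    exact mul_ne_zero hFp0 hFm0
  have hd0 : (nF P l al be p r).natDegree = 18 := by
    rw [hfac, natDegree_mul hFp0 hFm0, cP_natDegree h hD hlt hn, cP_natDegree h hD hlt hn]
  have hP := pval_nF (P := P) hl ha hb hp hr
  have hd1 : (nF P l₁ al₁ be₁ p₁ r₁).natDegree = 18 := by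
    refine le_antisymm (nF_natDegree_le hD hn₁) (le_natDegree_of_ne_zero ?_)
    refine (hP 18).ne_zero ?_
    rw [← hd0]
    exact leadingCoeff_ne_zero.2 hF0
  have key := bl_all (K := K) hP hF0 (hd1.trans hd0.symm)
    (fun y => pz P x l₁ (al₁ * y + p₁) (-be₁ * y + r₁) y)
    (fun y => pz P x l (al * y + p) (-be * y + r) y) (fun ρ a h1 h2 h3 => by
      rw [hfac, eval_mul] at h3
      rcases mul_eq_zero.1 h3 with h4 | h4
      · exact spec_pz hx h9 hl ha hb hp hr hlt hL hgen h1 h2 h4
      · exact spec_pz hx h9 hl ha hb hp hr hlt hL' hgen h1 h2 h4)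
  have e1 : ((nF P l al be p r).roots.map fun y => pz P x l (al * y + p) (-be * y + r) y).sum =
      ncyc P x l al be p r s s' + ncyc P x l al be p r (-s) (-s') := by
    rw [hfac, roots_mul (mul_ne_zero hFp0 hFm0), Multiset.map_add, Multiset.sum_add,
      sum_comp hx.nP h hD h9 hlt hgen hL, sum_comp hx.nP h hD h9 hlt hgen hL']
  rw [e1] at key
  exact key

end spec

section main

variable {K N : Type} [Field K] [Algebra ℂ K] [Field N] [Algebra ℂ N] [IsAlgClosed N] {P : Par}
  {x : Fin 5 → K}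

theorem free_of_indep {n : ℕ} {v : Fin n → N} (hv : AlgebraicIndependent ℂ v) :
    H521.Free (⊥ : IntermediateField ℂ N) v := by
  intro i h0
  have h1 : v i ∉ cl0 (v '' {i}ᶜ) := by
    rw [mem_cl0]
    exact (IntermediateField.transcendental_adjoin_iff).2 (hv.transcendental_adjoin (by simp))
  apply h1
  exact clo_le (cl0_closed _) bot_le (fun z hz => subset_cl0 _ hz) h0

/-- Three general parameters. -/
theorem exists_three (K : Type) [Field K] [Algebra ℂ K] (m : ℤ) (h4 : Algebra.trdeg ℂ N = 4) :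
    ∃ v : Fin 3 → N, H521.Free (⊥ : IntermediateField ℂ N) v ∧ ∀ W : (K →ₐ[ℂ] N) →₀ ℤ,
      (∀ g : N →ₐ[ℂ] N, (∀ i, g (v i) = v i) →
        Finsupp.mapDomain (fun φ : K →ₐ[ℂ] N => g.comp φ) W = W) → W ∈ Rel m K N := by
  classical
  obtain ⟨t, ht⟩ := exists_isTranscendenceBasis ℂ N
  have hcard : Cardinal.mk t = 4 := by
    rw [← h4]
    exact ht.cardinalMk_eq_trdeg
  have hcard' : Cardinal.mk (Fin 4) = Cardinal.mk t := by
    rw [hcard, Cardinal.mk_fin]
    rfl
  obtain ⟨e⟩ := Cardinal.eq.1 hcard'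
  let u : Fin 4 → N := fun i => (e i : N)
  have hu : AlgebraicIndependent ℂ u := ht.1.comp e e.injective
  have hru : Set.range u = t := by
    ext z
    constructor
    · rintro ⟨i, rfl⟩
      exact (e i).2
    · intro hz
      exact ⟨e.symm ⟨z, hz⟩, by simp [u]⟩
  have hrt : Set.range ((↑) : t → N) = t := Subtype.range_coe
  refine ⟨fun i => u i.castSucc, free_of_indep (hu.comp _ (Fin.castSucc_injective 3)),
    fun W hW => ?_⟩
  refine Rel.of_stable (H600.stable_of_fixed (IntermediateField.adjoin ℂ t)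
    ⟨4, u, hu, by rw [hru]⟩ ?_ W fun g hg => ?_)
  · have h2 := ht.isAlgebraic_field
    rwa [hrt] at h2
  · exact hW g.toAlgHom fun i => hg _ (IntermediateField.subset_adjoin _ _ (e i.castSucc).2)

theorem tr_of_val {N₁ : Type} [Field N₁] [Algebra ℂ N₁] [Algebra N N₁] [IsScalarTower ℂ N N₁]
    {V : Plc N N₁} {t₁ : N₁} {t : N} (hv : V.Val t₁ t) (ht : Transcendental ℂ t) :
    Transcendental ℂ t₁ := by
  rintro ⟨f, hf, h0⟩
  have h2 : ∀ f : ℂ[X], V.Val (aeval t₁ f) (aeval t f) := by
    intro f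
    induction f using Polynomial.induction_on' with
    | add p q hp hq => rw [map_add, map_add]; exact hp.add hq
    | monomial n a =>
      rw [aeval_monomial, aeval_monomial]
      exact (val_alg V a).mul (hv.pow n)
  have h3 := h2 f
  rw [h0] at h3
  exact ht ⟨f, hf, h3.unique V.val_zero⟩

/-- **[T1]** The sum of the cycles of the two components over a tangent line through a node is a
relation. -/
theorem t1 (h4 : Algebra.trdeg ℂ N = 4) {m : ℤ} (hx : H160.Z2Irr.IsFF P x) (h : NC P)
    (hD : Deg9 P) (h9 : Good9 P N) {l al be p r s s' : N} (hlt : Transcendental ℂ l)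
    (hL : NLine P l al be p r s s') (hgen : p ∉ cl0 {l} ∨ r ∉ cl0 {l}) :
    ncyc P x l al be p r s s' + ncyc P x l al be p r (-s) (-s') ∈ Rel m K N := by
  classical
  have hn := hL.node
  have ht := root_tr h hlt (tC_of_isNode hn)
  obtain ⟨e1, e2⟩ := be_of_isNode h hlt hn
  have e3 := l_eq h ht (tC_of_isNode hn)
  obtain ⟨τ, hτ⟩ : ∃ τ, τ = al / be := ⟨_, rfl⟩
  rw [← hτ] at ht e1 e2 e3
  obtain ⟨v, hv, hW⟩ := exists_three (N := N) K m h4
  have h1 : Vt P x N v ∈ Rel m K N := by
    refine hW _ fun g hg => ?_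
    rw [map_Vt g hx]
    congr 1
    funext i
    exact hg i
  have h2 := multi_specC (K := K) (m := m) (r := 0) (n := 3)
    (fun L _ _ _ _ v => Vt P x L v) (fun L L' _ _ _ _ _ _ g _ v => map_Vt g hx v)
    (N := N) Fin.elim0 ![τ, p, r] (fun _ => 0)
    (ncyc P x l al be p r s s' + ncyc P x l al be p r (-s) (-s')) (by
      intro N₁ _ _ _ _ _ V ε y hε0 hε hy hfree
      have hval : ∀ i, V.Val (algebraMap N N₁ ((![τ, p, r] : Fin 3 → N) i) + ε * y i)
          ((![τ, p, r] : Fin 3 → N) i) := by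
        intro i
        have h3 := (V.val_const ((![τ, p, r] : Fin 3 → N) i)).add (hε.mul (hy i))
        rwa [zero_mul, add_zero] at h3
      have vt := hval 0
      have vp := hval 1
      have vr := hval 2
      set t₁ := algebraMap N N₁ ((![τ, p, r] : Fin 3 → N) 0) + ε * y 0 with ht₁
      have htr₁ : Transcendental ℂ t₁ := tr_of_val vt ht
      have hD₁ := tD_ne h htr₁
      have hD₀ := tD_ne h ht
      have vq : V.Val (tq P t₁) (tq P τ) :=
        (((val_alg V _).mul (vt.pow 2)).sub ((val_alg V _).mul vt)).add (val_alg V _)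
      have vg : V.Val (tg P t₁) (tg P τ) :=
        vt.mul (((val_alg V _).mul vt).sub (val_alg V _))
      have vD : V.Val (tD P t₁) (tD P τ) := ((V.val_one.sub vt).mul vq).add vg
      have vl : V.Val (tg P t₁ / tD P t₁) l := by
        rw [e3]
        exact vg.div vD hD₀
      have vb : V.Val (nbe P t₁) be := by
        rw [e1]
        exact vq.div vD hD₀
      have va : V.Val (nal P t₁) al := by
        rw [e2]
        exact vt.mul (vq.div vD hD₀)
      have hc₁ : tC P (tg P t₁ / tD P t₁) t₁ = 0 := by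
        unfold tC
        field_simp
        unfold tD
        ring
      exact spec_nS hx h hD h9 vl va vb vp vr (isNode_of h htr₁ hc₁) hlt hL hgen)
    (F := ⊥) (fun i => i.elim0) (v := v) hv
  have h3 := (Rel m K N).add_mem h2 h1
  rwa [sub_add_cancel] at h3

end main

end Vale.Agent.P297.H55Z
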