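import Vale.Agent.P297.H55.Z2.Nrm
import Vale.Agent.P297.H160.Z2Gen

/-!
The coefficient of `S` in `Phi` does not vanish at the generic points of the surface.
-/

set_option linter.unusedSectionVars false
set_option linter.unusedVariables false

open IntermediateField Polynomial

namespace Vale.Agent.P297.H55Z

open Vale.Agent.P297 Vale.Agent.P297.Gen Vale.Agent.P297.H72 Vale.Agent.P297.H637
open Vale.Agent.P297.H160.Z2Irr Vale.Agent.P297.Z2

section ring

variable {R : Type*} [CommRing R] [Algebra ℂ R] (P : Par)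

/-- the factor `k + (k - 1) (A / U - B k / V)`, multiplied by `U V` -/
def wt (k y : R) : R := fU P y * fV P y * k + (k - 1) *
  (algebraMap ℂ R P.P0 * fV P y - algebraMap ℂ R P.P2 * fU P y * k)

/-- the relation between `y` and `k` if the coefficient vanishes -/
def rr (k y : R) : R :=
  (fU P y ^ 2 - k * fV P y ^ 2) * (fU P y * fV P y * k * (k - 1) *
    (fa P y * fU P y + fc P y * k * fV P y) + wt P k y * (fU P y ^ 2 - fV P y ^ 2 * k ^ 2)) +
  fg P y * (fU P y ^ 2 - fV P y ^ 2 * k ^ 2) * k * (k - 1)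

theorem rr_eq (x k y : R) : x * rr P k y =
    (k ^ 2 * nT P x k y - nS P x k y) * (fU P y ^ 2 - k * fV P y ^ 2) +
      fg P y * (fU P y ^ 2 - fV P y ^ 2 * k ^ 2) * (k * (k - 1) * x + fU P y ^ 2 - k * fV P y ^ 2) := by
  unfold rr wt nT nS
  ring

theorem rr_zero (y : R) : rr P 0 y = -(algebraMap ℂ R P.P0 * fV P y * fU P y ^ 4) := by
  unfold rr wt
  ring

variable {R' : Type*} [CommRing R'] [Algebra ℂ R'] (f : R →ₐ[ℂ] R')

theorem map_rr (k y : R) : f (rr P k y) = rr P (f k) (f y) := by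
  simp only [rr, wt, map_add, map_sub, map_mul, map_pow, map_one, map_fU, map_fV, map_fa, map_fc,
    map_fg, AlgHom.commutes]

end ring

section field

variable {N : Type} [Field N] [Algebra ℂ N] {P : Par} {l p r y S k : N}

theorem rr_ne (h0 : P.P0 ≠ 0) (hyk : AlgebraicIndependent ℂ ![y, k]) : rr P k y ≠ 0 := by
  intro h
  have h1 : MvPolynomial.aeval ![y, k] (rr P (MvPolynomial.X 1) (MvPolynomial.X 0) :
      MvPolynomial (Fin 2) ℂ) = 0 := by
    rw [map_rr, MvPolynomial.aeval_X, MvPolynomial.aeval_X]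
    exact h
  have h2 := (algebraicIndependent_iff.1 hyk) _ h1
  have h3 := congrArg (MvPolynomial.aeval (![X, 0] : Fin 2 → ℂ[X])) h2
  rw [map_rr, MvPolynomial.aeval_X, MvPolynomial.aeval_X, map_zero] at h3
  have h4 : rr P (0 : ℂ[X]) X = 0 := h3
  rw [rr_zero, neg_eq_zero] at h4
  have hU : fU P (X : ℂ[X]) ≠ 0 := X_add_C_ne_zero P.u
  have hV : fV P (X : ℂ[X]) ≠ 0 := X_add_C_ne_zero P.v
  have hA : algebraMap ℂ ℂ[X] P.P0 ≠ 0 := C_ne_zero.2 h0
  exact mul_ne_zero (mul_ne_zero hA hV) (pow_ne_zero 4 hU) h4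

/-- the value of `X (k² τ - σ)` -/
theorem toS_rel [CharZero N] (hU : fU P y ≠ 0) (hV : fV P y ≠ 0) (hE : (dat P y).E p ≠ 0)
    (hK : (dat P y).Kc l p r S ≠ 0) :
    toS P l p r y S 0 * (toS P l p r y S 1 ^ 2 * toS P l p r y S 4 - toS P l p r y S 3) *
      (fU P y * fV P y * (dat P y).E p) = -(dat P y).h l := by
  have hU' : (dat P y).U ≠ 0 := hU
  have hV' : (dat P y).V ≠ 0 := hV
  change (dat P y).X l p r S * ((dat P y).kap p r ^ 2 * (dat P y).ta l p r S -
    (dat P y).sg l p r S) * ((dat P y).U * (dat P y).V * (dat P y).E p) = -(dat P y).h l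
  generalize dat P y = D at *
  have h2 : D.Kc l p r S = D.tN l p r S * D.F r ^ 2 - D.sN l p r S * D.E p ^ 2 := rfl
  have h4 : D.kap p r ^ 2 * D.ta l p r S - D.sg l p r S =
      D.Kc l p r S / (2 * D.U * D.V * D.E p ^ 3) := by
    rw [h2]
    unfold Dat.kap Dat.ta Dat.sg
    field_simp
  rw [h4]
  unfold Dat.X
  field_simp

/-- **The coefficient of `S` in `Phi` does not vanish at the generic points of the surface.** -/
theorem tPhi1_ne [CharZero N] (h0 : P.P0 ≠ 0) (hg : Good P l p r y S) : tPhi1 P l p r y ≠ 0 := by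
  intro h
  have hyk := hg.gen.ind_yk h0
  obtain ⟨k, hk⟩ : ∃ k, k = toS P l p r y S 1 := ⟨_, rfl⟩
  obtain ⟨x, hx⟩ : ∃ x, x = toS P l p r y S 0 := ⟨_, rfl⟩
  have hy : toS P l p r y S 2 = y := rfl
  have hx0 : x ≠ 0 := by
    rw [hx]
    exact hg.gen.nx
  rw [hy, ← hk] at hyk
  have hD := hg.gen.nQ_ne
  have e3 := hg.gen.s_eq
  have e4 := hg.gen.t_eq
  have e5 := toS_rel hg.nU hg.nV hg.nE hg.nK
  rw [hy, ← hk, ← hx] at e3 e4 hD
  rw [← hk, ← hx] at e5
  have hkE : k * (dat P y).E p = (dat P y).F r := by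
    rw [hk]
    change (dat P y).F r / (dat P y).E p * (dat P y).E p = _
    exact div_mul_cancel₀ _ hg.nE
  have v1 := (dat P y).V_mul_al l p
  have v2 := (dat P y).U_mul_be l r
  have hgg : (dat P y).g = fg P y := by
    unfold Dat.g fg dat
    ring
  rw [hgg] at v1 v2
  have hU := hg.nU
  have hV := hg.nV
  have hE := hg.nE
  have e6 : fg P y * (dat P y).E p * (fU P y ^ 2 - fV P y ^ 2 * k ^ 2) =
      (dat P y).h l * (fU P y ^ 2 - k * fV P y ^ 2) := by
    apply mul_left_cancel₀ hE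
    have h1 : fU P y * fV P y * tPhi1 P l p r y = 0 := by rw [h, mul_zero]
    unfold tPhi1 at h1
    have a1 : (dat P y).U = fU P y := rfl
    have a2 : (dat P y).V = fV P y := rfl
    rw [a1] at v2 h1
    rw [a2] at v1 h1
    rw [← hkE] at h1 v2
    linear_combination h1 - fU P y ^ 2 * (dat P y).E p * v1 +
      fV P y ^ 2 * (k * (dat P y).E p) * v2
  -- the polynomial relation
  apply rr_ne h0 hyk
  have e7 := rr_eq P x k y
  obtain ⟨σ, hσ⟩ : ∃ σ, σ = toS P l p r y S 3 := ⟨_, rfl⟩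
  obtain ⟨τ, hτ⟩ : ∃ τ, τ = toS P l p r y S 4 := ⟨_, rfl⟩
  rw [← hσ] at e3 e5
  rw [← hτ] at e4 e5
  have e8 : (k ^ 2 * nT P x k y - nS P x k y) = nQ P x k y * (k ^ 2 * τ - σ) := by
    linear_combination k ^ 2 * (-e4) + e3
  rw [e8] at e7
  have e9 : nQ P x k y = fU P y * fV P y * x * (k * (k - 1) * x + fU P y ^ 2 - k * fV P y ^ 2) := rfl
  have hE2 : x * (k ^ 2 * τ - σ) * (fU P y * fV P y) * (fU P y ^ 2 - k * fV P y ^ 2) =
      -(fg P y * (fU P y ^ 2 - fV P y ^ 2 * k ^ 2)) := by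
    apply mul_left_cancel₀ hE
    linear_combination (fU P y ^ 2 - k * fV P y ^ 2) * e5 + e6
  apply mul_left_cancel₀ hx0
  rw [e7, e9, mul_zero]
  linear_combination (k * (k - 1) * x + fU P y ^ 2 - k * fV P y ^ 2) * hE2

end field

end Vale.Agent.P297.H55Z
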