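import Vale.Agent.P297.H160.Z2Pts
import Vale.Agent.P297.H637.MSpec

/-!
General numerical Godeaux surfaces with torsion of order two: points under change of the field of
values, specialisation of points, values of ring-valued functions along a place.
-/

set_option linter.unusedSectionVars false
set_option linter.style.haveILetI false

open IntermediateField Polynomial

namespace Vale.Agent.P297.H55Z

open Vale.Agent.P297 Vale.Agent.P297.Gen Vale.Agent.P297.H72 Vale.Agent.P297.H637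
open Vale.Agent.P297.H160.Z2Irr

section maps

variable {K N N' : Type} [Field K] [Algebra ℂ K] [Field N] [Algebra ℂ N] [Field N'] [Algebra ℂ N']
  {P : Par} {x : Fin 5 → K}

/-- A point with values in a bigger field whose coordinates lie in the smaller one. -/
theorem exists_of_map (hx : H160.Z2Irr.IsFF P x) (σ : N →ₐ[ℂ] N') {w : Fin 5 → N} {ψ : K →ₐ[ℂ] N'}
    (h : ∀ j, ψ (x j) = σ (w j)) : ∃ φ : K →ₐ[ℂ] N, ∀ j, φ (x j) = w j := by
  have hr : ∀ z, ψ z ∈ σ.fieldRange := by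
    intro z
    have hz : z ∈ IntermediateField.adjoin ℂ (Set.range x) := by
      rw [hx.top]
      trivial
    have h1 : IntermediateField.adjoin ℂ (Set.range x) ≤ σ.fieldRange.comap ψ := by
      rw [IntermediateField.adjoin_le_iff]
      rintro _ ⟨j, rfl⟩
      exact ⟨w j, (h j).symm⟩
    exact h1 hz
  let e : N ≃ₐ[ℂ] σ.fieldRange := AlgEquiv.ofInjectiveField σ
  let ψ' : K →ₐ[ℂ] σ.fieldRange := ψ.codRestrict σ.fieldRange.toSubalgebra hr
  refine ⟨e.symm.toAlgHom.comp ψ', fun j => ?_⟩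
  change e.symm (ψ' (x j)) = w j
  rw [AlgEquiv.symm_apply_eq]
  apply Subtype.ext
  exact h j

/-- Change of the field of values, for all points. -/
theorem map_pt_all (hx : H160.Z2Irr.IsFF P x) (w : Fin 5 → N) (σ : N →ₐ[ℂ] N') :
    Finsupp.mapDomain (fun φ : K →ₐ[ℂ] N => σ.comp φ) (H160.Z2Irr.pt x w) = H160.Z2Irr.pt x (fun j => σ (w j)) := by
  by_cases ho : ∃ φ : K →ₐ[ℂ] N, ∀ j, φ (x j) = w j
  · obtain ⟨φ, hφ⟩ := ho
    rw [pt_eq hx hφ, Finsupp.mapDomain_single]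
    refine (pt_eq hx fun j => ?_).symm
    rw [AlgHom.comp_apply, hφ]
  · have h1 : H160.Z2Irr.pt x w = 0 := by
      unfold H160.Z2Irr.pt
      rw [dif_neg ho]
    have h2 : ¬ ∃ ψ : K →ₐ[ℂ] N', ∀ j, ψ (x j) = σ (w j) := by
      rintro ⟨ψ, hψ⟩
      exact ho (exists_of_map hx σ hψ)
    rw [h1, Finsupp.mapDomain_zero]
    unfold H160.Z2Irr.pt
    rw [dif_neg h2]

end maps

section place

variable {N N₁ : Type} [Field N] [Algebra ℂ N] [Field N₁] [Algebra ℂ N₁]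
  [Algebra N N₁] [IsScalarTower ℂ N N₁] (V : Plc N N₁)

theorem val_alg (z : ℂ) : V.Val (algebraMap ℂ N₁ z) (algebraMap ℂ N z) := by
  rw [IsScalarTower.algebraMap_apply ℂ N N₁]
  exact V.val_const _

/-- The ring of the pairs (finite element, value). -/
def Pr : Subalgebra ℂ (N₁ × N) where
  carrier := {q | V.Val q.1 q.2}
  mul_mem' h h' := h.mul h'
  add_mem' h h' := h.add h'
  algebraMap_mem' z := val_alg V z

/-- the element -/
def fs : Pr V →ₐ[ℂ] N₁ := (AlgHom.fst ℂ N₁ N).comp (Pr V).val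

/-- its value -/
def sn : Pr V →ₐ[ℂ] N := (AlgHom.snd ℂ N₁ N).comp (Pr V).val

variable {V}

theorem val_pr (q : Pr V) : V.Val (fs V q) (sn V q) := q.2

/-- Coefficients of polynomials over the ring of pairs. -/
theorem pval_pr (F : (Pr V)[X]) : PVal V (F.map (fs V : Pr V →+* N₁)) (F.map (sn V : Pr V →+* N)) := by
  intro n
  rw [coeff_map, coeff_map]
  exact val_pr _

/-- the pair -/
def mk {a₁ : N₁} {a : N} (h : V.Val a₁ a) : Pr V := ⟨(a₁, a), h⟩

theorem fs_mk {a₁ : N₁} {a : N} (h : V.Val a₁ a) : fs V (mk h) = a₁ := rfl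

theorem sn_mk {a₁ : N₁} {a : N} (h : V.Val a₁ a) : sn V (mk h) = a := rfl

variable {P : Par}

theorem val_fU {a₁ : N₁} {a : N} (h : V.Val a₁ a) : V.Val (fU P a₁) (fU P a) :=
  h.add (val_alg V _)

theorem val_fV {a₁ : N₁} {a : N} (h : V.Val a₁ a) : V.Val (fV P a₁) (fV P a) :=
  h.add (val_alg V _)

theorem val_fD {x₁ k₁ y₁ : N₁} {x k y : N} (hx : V.Val x₁ x) (hk : V.Val k₁ k) (hy : V.Val y₁ y) :
    V.Val (fD P x₁ k₁ y₁) (fD P x k y) :=
  (((hk.mul (hk.sub V.val_one)).mul hx).add ((val_fU hy).pow 2)).sub (hk.mul ((val_fV hy).pow 2))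

/-- **Generic points lift to generic points.** -/
theorem genS_of_val {y₁ : Fin 5 → N₁} {y : Fin 5 → N} (hv : ∀ j, V.Val (y₁ j) (y j))
    (hy : GenS P y) (h1 : E1 P (y₁ 0) (y₁ 1) (y₁ 2) (y₁ 3) (y₁ 4))
    (h2 : E2 P (y₁ 0) (y₁ 1) (y₁ 2) (y₁ 3) (y₁ 4))
    (h3 : E3 P (y₁ 0) (y₁ 1) (y₁ 2) (y₁ 3) (y₁ 4)) : GenS P y₁ where
  e1 := h1
  e2 := h2
  e3 := h3
  nx := (hv 0).ne_zero hy.nx
  nU := (val_fU (hv 2)).ne_zero hy.nU
  nV := (val_fV (hv 2)).ne_zero hy.nV
  nD := (val_fD (hv 0) (hv 1) (hv 2)).ne_zero hy.nD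
  ind := by
    obtain ⟨i, j, hij⟩ := hy.ind
    refine ⟨i, j, ?_⟩
    rw [algebraicIndependent_iff] at hij ⊢
    intro f hf
    apply hij
    have h1 : ∀ k, V.Val ((![y₁ i, y₁ j] : Fin 2 → N₁) k) ((![y i, y j] : Fin 2 → N) k) := by
      intro k
      fin_cases k
      · exact hv i
      · exact hv j
    have h2 : ∀ f : MvPolynomial (Fin 2) ℂ,
        V.Val (MvPolynomial.aeval (![y₁ i, y₁ j] : Fin 2 → N₁) f)
          (MvPolynomial.aeval (![y i, y j] : Fin 2 → N) f) := by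
      intro f
      induction f using MvPolynomial.induction_on with
      | C a =>
        rw [MvPolynomial.aeval_C, MvPolynomial.aeval_C]
        exact val_alg V _
      | add p q hp hq => rw [map_add, map_add]; exact hp.add hq
      | mul_X p k hp =>
        rw [map_mul, map_mul, MvPolynomial.aeval_X, MvPolynomial.aeval_X]
        exact hp.mul (h1 k)
    have h3 := h2 f
    rw [hf] at h3
    exact h3.unique V.val_zero

variable {K : Type} [Field K] [Algebra ℂ K] {x : Fin 5 → K}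

/-- **The specialisation of a point of the surface.** -/
theorem specC_pt (hx : H160.Z2Irr.IsFF P x) {y₁ : Fin 5 → N₁} {y : Fin 5 → N}
    (h1 : E1 P (y₁ 0) (y₁ 1) (y₁ 2) (y₁ 3) (y₁ 4))
    (h2 : E2 P (y₁ 0) (y₁ 1) (y₁ 2) (y₁ 3) (y₁ 4))
    (h3 : E3 P (y₁ 0) (y₁ 1) (y₁ 2) (y₁ 3) (y₁ 4))
    (hv : ∀ j, V.Val (y₁ j) (y j)) (hy : GenS P y) : (H160.Z2Irr.pt x y₁, H160.Z2Irr.pt x y) ∈ SpecC K V := by
  obtain ⟨φ, hφ⟩ := hy.exists_phi hx
  obtain ⟨φ₁, hφ₁⟩ := (genS_of_val hv hy h1 h2 h3).exists_phi hx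
  rw [pt_eq hx hφ, pt_eq hx hφ₁]
  refine SpecC.single_of_gens hx.top ?_
  rintro _ ⟨j, rfl⟩
  rw [hφ, hφ₁]
  exact hv j

end place

end Vale.Agent.P297.H55Z
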